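import Vale.Agent.P011.H978.Cyc.NT
import Mathlib.NumberTheory.NumberField.Cyclotomic.Ideal
import Mathlib.NumberTheory.Cyclotomic.Gal
import Mathlib.RingTheory.Frobenius
import Mathlib.FieldTheory.Galois.IsGaloisGroup
import Mathlib.RingTheory.DedekindDomain.AdicValuation

/-!
Cyclic extensions of odd degree of a number field with residue degrees divisible by a given odd
number at given places.
-/

open NumberField IsDedekindDomain Module

namespace Vale.Agent.P011.H978.Cyc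

theorem dvd_of_pow_dvd {n a b : ℕ} (ha : 0 < a) (h : n ^ (a + 1) ∣ a * b) (hn : n ≠ 0) : n ∣ b := by
  rcases Nat.eq_zero_or_pos b with rfl | hb
  · exact dvd_zero n
  rw [← Nat.factorization_le_iff_dvd hn hb.ne']
  rw [← Nat.factorization_le_iff_dvd (pow_ne_zero _ hn) (mul_pos ha hb).ne'] at h
  intro l
  have h1 := h l
  rw [Nat.factorization_mul ha.ne' hb.ne', Nat.factorization_pow] at h1
  simp only [Finsupp.smul_apply, smul_eq_mul, Finsupp.add_apply] at h1
  have h2 : a.factorization l < a := Nat.factorization_lt l ha.ne'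
  rcases Nat.eq_zero_or_pos (n.factorization l) with h3 | h3
  · omega
  · have h4 : a ≤ a * n.factorization l := Nat.le_mul_of_pos_right a h3
    rw [add_mul, one_mul] at h1
    omega

section

variable {K : Type} [Field K] [NumberField K]

/-- The residue field of a place has prime power order. -/
theorem exists_card (v : HeightOneSpectrum (𝓞 K)) : ∃ p f : ℕ, p.Prime ∧ 0 < f ∧
    Nat.card (𝓞 K ⧸ v.asIdeal) = p ^ f ∧ ((p : ℕ) : 𝓞 K) ∈ v.asIdeal := by
  classical
  have hmax : v.asIdeal.IsMaximal := v.isMaximal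
  let _ : Field (𝓞 K ⧸ v.asIdeal) := Ideal.Quotient.field v.asIdeal
  have hfin : Finite (𝓞 K ⧸ v.asIdeal) := Ideal.finiteQuotientOfFreeOfNeBot v.asIdeal v.ne_bot
  let _ := Fintype.ofFinite (𝓞 K ⧸ v.asIdeal)
  obtain ⟨p, hp⟩ := CharP.exists (𝓞 K ⧸ v.asIdeal)
  obtain ⟨f, hpp, hf⟩ := FiniteField.card (𝓞 K ⧸ v.asIdeal) p
  refine ⟨p, f, hpp, f.pos, by rw [Nat.card_eq_fintype_card, hf], ?_⟩
  rw [← Ideal.Quotient.eq_zero_iff_mem, map_natCast]
  exact CharP.cast_eq_zero _ p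

/-- The cardinality of a residue field extension. -/
theorem exists_card_pow {L : Type} [Field L] [NumberField L] [Algebra K L]
    (v : HeightOneSpectrum (𝓞 K)) (w : HeightOneSpectrum (𝓞 L))
    (h : w.asIdeal.comap (algebraMap (𝓞 K) (𝓞 L)) = v.asIdeal) :
    ∃ f : ℕ, Nat.card (𝓞 L ⧸ w.asIdeal) = Nat.card (𝓞 K ⧸ v.asIdeal) ^ f := by
  classical
  have hmax : v.asIdeal.IsMaximal := v.isMaximal
  have hmaxw : w.asIdeal.IsMaximal := w.isMaximal
  let _ : Field (𝓞 K ⧸ v.asIdeal) := Ideal.Quotient.field v.asIdeal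
  let _ : Field (𝓞 L ⧸ w.asIdeal) := Ideal.Quotient.field w.asIdeal
  have hfin : Finite (𝓞 K ⧸ v.asIdeal) := Ideal.finiteQuotientOfFreeOfNeBot v.asIdeal v.ne_bot
  have hfinw : Finite (𝓞 L ⧸ w.asIdeal) := Ideal.finiteQuotientOfFreeOfNeBot w.asIdeal w.ne_bot
  let φ : (𝓞 K ⧸ v.asIdeal) →+* (𝓞 L ⧸ w.asIdeal) :=
    Ideal.quotientMap w.asIdeal (algebraMap (𝓞 K) (𝓞 L)) (le_of_eq h.symm)
  let _ : Algebra (𝓞 K ⧸ v.asIdeal) (𝓞 L ⧸ w.asIdeal) := φ.toAlgebra
  have hmf : Module.Finite (𝓞 K ⧸ v.asIdeal) (𝓞 L ⧸ w.asIdeal) := Module.Finite.of_finite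
  exact ⟨_, Module.natCard_eq_pow_finrank (K := 𝓞 K ⧸ v.asIdeal) (V := 𝓞 L ⧸ w.asIdeal)⟩

/-- **Cyclic extensions of odd degree with large residue degrees** -/
theorem exists_field (K : Type) [Field K] [NumberField K] {n : ℕ} (hn : Odd n)
    (S : Set (HeightOneSpectrum (𝓞 K))) (hS : S.Finite) :
    ∃ (L : Type) (_ : Field L) (_ : NumberField L) (_ : Algebra K L) (_ : IsGalois K L)
      (σ : L ≃ₐ[K] L), (∀ τ : L ≃ₐ[K] L, τ ∈ Subgroup.zpowers σ) ∧ Odd (finrank K L) ∧
      ∀ v ∈ S, ∀ w : HeightOneSpectrum (𝓞 L),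
        w.asIdeal.comap (algebraMap (𝓞 K) (𝓞 L)) = v.asIdeal →
        ∃ f : ℕ, n ∣ f ∧ Nat.card (𝓞 L ⧸ w.asIdeal) = Nat.card (𝓞 K ⧸ v.asIdeal) ^ f := by
  classical
  choose p f hp hf hcard hmem using fun v : HeightOneSpectrum (𝓞 K) => exists_card v
  let P : Finset ℕ := hS.toFinset.image p
  have hP : ∀ r ∈ P, r.Prime := by
    intro r hr
    obtain ⟨v, _, rfl⟩ := Finset.mem_image.mp hr
    exact hp v
  have hn0 : n ≠ 0 := by rintro rfl; exact absurd hn (by decide)
  set e : ℕ := ∑ v ∈ hS.toFinset, f v with he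
  have hne : Odd (n ^ (e + 1)) := hn.pow
  obtain ⟨Q, hQ, χ, M, hcop, hord, hval⟩ := exists_char P hP hne
  have hQ0 : NeZero Q := ⟨hQ.ne'⟩
  have hQK : NeZero (Q : K) := NeZero.charZero
  let E := CyclotomicField Q K
  have hcyc : IsCyclotomicExtension {Q} K E := CyclotomicField.isCyclotomicExtension Q K
  have hgal : IsGalois K E := IsCyclotomicExtension.isGalois {Q} K E
  have hnf : NumberField E := IsCyclotomicExtension.numberField {Q} K E
  have hfd : FiniteDimensional K E := IsCyclotomicExtension.finiteDimensional {Q} K E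
  have hζ : IsPrimitiveRoot (IsCyclotomicExtension.zeta Q K E) Q :=
    IsCyclotomicExtension.zeta_spec Q K E
  set ζ : E := IsCyclotomicExtension.zeta Q K E with hζdef
  let φ : (E ≃ₐ[K] E) →* ℂˣ := χ.comp (hζ.autToPow K)
  let H : Subgroup (E ≃ₐ[K] E) := φ.ker
  let L := IntermediateField.fixedField H
  have hgL : IsGalois K L := IsGalois.of_fixedField_normal_subgroup H
  have hnfL : NumberField L :=
    { to_charZero := charZero_of_injective_algebraMap (algebraMap K L).injective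
      to_finiteDimensional := Module.Finite.trans K L }
  let eq1 : (E ≃ₐ[K] E) ⧸ H ≃* (L ≃ₐ[K] L) := IsGalois.normalAutEquivQuotient H
  let eq2 : (E ≃ₐ[K] E) ⧸ H ≃* φ.range := QuotientGroup.quotientKerEquivRange φ
  have hfr : Finite φ.range := inferInstance
  have hcr : IsCyclic φ.range := inferInstance
  have hcL : IsCyclic (L ≃ₐ[K] L) :=
    isCyclic_of_surjective (eq2.symm.trans eq1) (eq2.symm.trans eq1).surjective
  obtain ⟨σ, hσ⟩ := hcL.exists_generator
  refine ⟨L, inferInstance, hnfL, inferInstance, hgL, σ, hσ, ?_, ?_⟩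
  · -- odd degree
    rw [← IsGalois.card_aut_eq_finrank K L, ← Nat.not_even_iff_odd]
    intro hev
    have h2 : Fact (Nat.Prime 2) := ⟨Nat.prime_two⟩
    obtain ⟨τ, hτ⟩ := exists_prime_orderOf_dvd_card' (G := L ≃ₐ[K] L) 2 hev.two_dvd
    obtain ⟨⟨z, ⟨g, hg⟩⟩, hz⟩ := (eq2.symm.trans eq1).surjective τ
    have h3 : z ^ (n ^ (e + 1)) ^ M = 1 := by
      rw [← hg]
      exact hord _
    have h4 : τ ^ (n ^ (e + 1)) ^ M = 1 := by
      rw [← hz, ← map_pow]
      have h5 : (⟨z, ⟨g, hg⟩⟩ : φ.range) ^ (n ^ (e + 1)) ^ M = 1 := Subtype.ext h3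
      rw [h5, map_one]
    have h5 := orderOf_dvd_of_pow_eq_one h4
    rw [hτ] at h5
    exact (Nat.not_even_iff_odd.mpr (hne.pow)) (even_iff_two_dvd.mpr h5)
  · intro v hv w hw
    obtain ⟨f', hf'⟩ := exists_card_pow v w hw
    refine ⟨f', ?_, hf'⟩
    have hvS : v ∈ hS.toFinset := hS.mem_toFinset.mpr hv
    have hpP : p v ∈ P := Finset.mem_image_of_mem p hvS
    have hpQ := hcop _ hpP
    -- a prime above `w`
    have hmaxw : w.asIdeal.IsMaximal := w.isMaximal
    obtain ⟨Pr, hPr, hPrw⟩ := Ideal.exists_maximal_ideal_liesOver_of_isIntegral w.asIdeal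
      (S := 𝓞 E)
    have hPrime : Pr.IsPrime := hPr.isPrime
    have hunder : Pr.under (𝓞 L) = w.asIdeal := hPrw.over.symm
    have hPr0 : Pr ≠ ⊥ := by
      rintro rfl
      apply w.ne_bot
      rw [← hunder, Ideal.under, ← RingHom.ker_eq_comap_bot, RingHom.ker_eq_bot_iff_eq_zero]
      intro x hx
      exact (FaithfulSMul.algebraMap_eq_zero_iff (𝓞 L) (𝓞 E)).mp hx
    have hfin : Finite (𝓞 E ⧸ Pr) := Ideal.finiteQuotientOfFreeOfNeBot Pr hPr0
    obtain ⟨τ, hτ⟩ := IsArithFrobAt.exists_of_isInvariant (𝓞 L) (E ≃ₐ[L] E) Pr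
    let z : 𝓞 E := ⟨ζ, hζ.isIntegral hQ⟩
    have hz1 : z ^ Q = 1 := by
      apply RingOfIntegers.ext
      change ζ ^ Q = 1
      exact hζ.pow_eq_one
    have hQP : ((Q : ℕ) : 𝓞 E) ∉ Pr := by
      intro h
      have h1 : ((p v : ℕ) : 𝓞 E) ∈ Pr := by
        have h2 : ((p v : ℕ) : 𝓞 L) ∈ w.asIdeal := by
          have h3 : algebraMap (𝓞 K) (𝓞 L) ((p v : ℕ) : 𝓞 K) ∈ w.asIdeal := by
            rw [← Ideal.mem_comap, hw]
            exact hmem v
          rwa [map_natCast] at h3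
        rw [← hunder, Ideal.under, Ideal.mem_comap, map_natCast] at h2
        exact h2
      have h2 : (1 : 𝓞 E) ∈ Pr := by
        have h3 : IsCoprime ((p v : ℕ) : ℤ) ((Q : ℕ) : ℤ) := Nat.isCoprime_iff_coprime.mpr hpQ
        obtain ⟨a, b, hab⟩ := h3
        have h4 : (a : 𝓞 E) * (p v : ℕ) + (b : 𝓞 E) * (Q : ℕ) = 1 := by
          have h5 := congrArg (fun t : ℤ => (t : 𝓞 E)) hab
          push_cast at h5
          exact h5
        rw [← h4]
        exact Pr.add_mem (Pr.mul_mem_left _ h1) (Pr.mul_mem_left _ h)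
      exact hPr.ne_top ((Ideal.eq_top_iff_one _).mpr h2)
    have h1 := hτ.apply_of_pow_eq_one hz1 hQP
    rw [hunder] at h1
    have h2 : τ ζ = ζ ^ Nat.card (𝓞 L ⧸ w.asIdeal) := by
      have := congrArg (algebraMap (𝓞 E) E) h1
      exact this
    -- the automorphism lies in the kernel
    let τ' : E ≃ₐ[K] E := τ.restrictScalars K
    have hτH : τ' ∈ H := by
      have h3 : IntermediateField.fixingSubgroup L = H := IntermediateField.fixingSubgroup_fixedField H
      rw [← h3, IntermediateField.mem_fixingSubgroup_iff]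
      intro x hx
      exact τ.commutes ⟨x, hx⟩
    have h3 : χ (hζ.autToPow K τ') = 1 := hτH
    have h4 : (hζ.autToPow K τ' : ZMod Q) = ((p v) ^ (f v * f') : ℕ) := by
      have h5 := hζ.autToPow_spec K τ'
      have h6 : τ' ζ = ζ ^ ((p v) ^ (f v * f')) := by
        have h7 : τ' ζ = τ ζ := rfl
        rw [h7, h2, hf', hcard, ← pow_mul]
      rw [h6] at h5
      have hζ0 : ζ ≠ 0 := hζ.ne_zero hQ.ne'
      set A : ℕ := ((hζ.autToPow K τ' : (ZMod Q)ˣ) : ZMod Q).val with hA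
      have h7 : ζ ^ ((A : ℤ) - ((p v ^ (f v * f') : ℕ) : ℤ)) = 1 := by
        rw [zpow_sub₀ hζ0, zpow_natCast, zpow_natCast, h5, div_self (pow_ne_zero _ hζ0)]
      have h8 := (hζ.zpow_eq_one_iff_dvd _).mp h7
      have h9 := (ZMod.intCast_eq_intCast_iff_dvd_sub _ _ _).mpr h8
      rw [Int.cast_natCast, Int.cast_natCast, hA, ZMod.natCast_zmod_val] at h9
      exact h9.symm
    let u : (ZMod Q)ˣ := ZMod.unitOfCoprime (p v) hpQ
    have h5 : hζ.autToPow K τ' = u ^ (f v * f') := by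
      apply Units.ext
      rw [h4, Units.val_pow_eq_pow_val, ZMod.coe_unitOfCoprime, Nat.cast_pow]
    rw [h5, map_pow] at h3
    have h6 := hval _ hpP u (ZMod.coe_unitOfCoprime _ _) _ h3
    refine dvd_of_pow_dvd (hf v) ((pow_dvd_pow n ?_).trans h6) hn0
    have h7 : f v ≤ e := Finset.single_le_sum (f := f) (fun _ _ => Nat.zero_le _) hvS
    omega

end

end Vale.Agent.P011.H978.Cyc
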