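import Vale.Agent.P011.W.LocC
import Vale.Agent.P011.W.MaxF
import Mathlib.FieldTheory.Extension
import Mathlib.RingTheory.Polynomial.Cyclotomic.Basic

/-!
A local central division algebra of degree `m` is split by every extension which contains a
primitive root of unity of order `q ^ m - 1`, where `q` is the order of the residue field.
-/

open Module Polynomial

namespace Vale.Agent.P011.H978.Cyc

open Vale.Agent.P011.W
open Vale.Agent.P011.Even.LocDiv

section frob

variable {k E : Type} [NontriviallyNormedField k] [NormedDivisionRing E]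
  [NormedAlgebra k E] [IsUltrametricDist E] {R : Frame E} {W : Type} [Field W] [Algebra k W]
  (Y : Cyc k E W R)

/-- The integers of the unramified maximal subfield. -/
def AA : Subring W where
  carrier := {w | ‖Y.ι w‖ ≤ 1}
  mul_mem' := by
    intro a b ha hb
    change ‖Y.ι (a * b)‖ ≤ 1
    rw [map_mul, norm_mul]
    exact mul_le_one₀ ha (norm_nonneg _) hb
  one_mem' := by
    change ‖Y.ι 1‖ ≤ 1
    rw [map_one, norm_one]
  add_mem' := by
    intro a b ha hb
    change ‖Y.ι (a + b)‖ ≤ 1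
    rw [map_add]
    exact (IsUltrametricDist.norm_add_le_max _ _).trans (max_le ha hb)
  zero_mem' := by
    change ‖Y.ι 0‖ ≤ 1
    rw [map_zero, norm_zero]
    exact zero_le_one
  neg_mem' := by
    intro a ha
    change ‖Y.ι (-a)‖ ≤ 1
    rw [map_neg, norm_neg]
    exact ha

/-- The maximal ideal. -/
def II : Ideal (AA Y) where
  carrier := {w | ‖Y.ι (w : W)‖ < 1}
  add_mem' := by
    intro a b ha hb
    change ‖Y.ι ((a : W) + (b : W))‖ < 1
    rw [map_add]
    exact lt_of_le_of_lt (IsUltrametricDist.norm_add_le_max _ _) (max_lt ha hb)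
  zero_mem' := by
    change ‖Y.ι ((0 : AA Y) : W)‖ < 1
    rw [Subring.coe_zero, map_zero, norm_zero]
    exact one_pos
  smul_mem' := by
    intro a b hb
    change ‖Y.ι ((a : W) * (b : W))‖ < 1
    rw [map_mul, norm_mul]
    exact mul_lt_one_of_nonneg_of_lt_one_right a.2 (norm_nonneg _) hb

theorem mem_II (w : AA Y) : w ∈ II Y ↔ ‖Y.ι (w : W)‖ < 1 := Iff.rfl

instance : (II Y).IsPrime where
  ne_top' := by
    rw [Ne, Ideal.eq_top_iff_one, mem_II, Subring.coe_one, map_one, norm_one]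
    exact lt_irrefl _
  mem_or_mem' := by
    intro a b h
    rw [mem_II, Subring.coe_mul, map_mul, norm_mul] at h
    rw [mem_II, mem_II]
    by_contra hcon
    push Not at hcon
    have h1 : (1 : ℝ) ≤ ‖Y.ι (a : W)‖ * ‖Y.ι (b : W)‖ := by nlinarith [hcon.1, hcon.2]
    exact absurd h (not_lt.mpr h1)

/-- The conjugates of the generator. -/
def cj (i : ℕ) : AA Y := ⟨Y.σ^[i] Y.ω, by
  change ‖Y.ι _‖ ≤ 1
  rw [Y.σ_ω, Y.norm_ω]⟩

theorem cj_coe (i : ℕ) : ((cj Y i : AA Y) : W) = Y.ω ^ (R.j ^ i) := Y.σ_ω i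

include Y in
/-- **The Frobenius of the base acts on the generator as a conjugation.** -/
theorem exists_frob {p a : ℕ} (hp : p.Prime) (hp1 : ‖(p : k)‖ < 1)
    (hq : ∀ c : k, ‖c‖ ≤ 1 → ‖c ^ p ^ a - c‖ < 1) : ∃ i, R.ζ ^ p ^ a = R.ζ ^ (R.j ^ i) := by
  classical
  set κ := AA Y ⧸ II Y with hκ
  let mk : AA Y →+* κ := Ideal.Quotient.mk (II Y)
  have hpI : ((p : ℕ) : κ) = 0 := by
    have h1 : ((p : ℕ) : κ) = mk ((p : ℕ) : AA Y) := (map_natCast mk p).symm
    rw [h1]
    refine Ideal.Quotient.eq_zero_iff_mem.mpr ?_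
    rw [mem_II]
    have h2 : (((p : ℕ) : AA Y) : W) = algebraMap k W (p : k) := by
      rw [map_natCast]
      rfl
    rw [h2, Y.norm_alg]
    exact hp1
  have hchar : CharP κ p := (CharP.charP_iff_prime_eq_zero hp).mpr hpI
  have hexp : ExpChar κ p := .prime hp
  -- the polynomial
  let P : (AA Y)[X] := ∏ i ∈ Finset.range Y.m, (X - C (cj Y i))
  -- its coefficients are fixed by the automorphism
  have hfix : ∀ l, Y.σ ((P.coeff l : AA Y) : W) = ((P.coeff l : AA Y) : W) := by
    have h1 : P.map (AA Y).subtype = ∏ i ∈ Finset.range Y.m, (X - C (Y.σ^[i] Y.ω)) := by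
      rw [Polynomial.map_prod]
      refine Finset.prod_congr rfl fun i _ => ?_
      rw [Polynomial.map_sub, map_X, map_C]
      rfl
    have h2 : (∏ i ∈ Finset.range Y.m, (X - C (Y.σ^[i + 1] Y.ω)) : W[X]) =
        ∏ i ∈ Finset.range Y.m, (X - C (Y.σ^[i] Y.ω)) := by
      have h3 : (∏ i ∈ Finset.range (Y.m + 1), (X - C (Y.σ^[i] Y.ω)) : W[X]) =
          (∏ i ∈ Finset.range Y.m, (X - C (Y.σ^[i + 1] Y.ω))) * (X - C (Y.σ^[0] Y.ω)) :=
        Finset.prod_range_succ' _ _
      rw [Finset.prod_range_succ, Y.σ_m] at h3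
      exact mul_right_cancel₀ (X_sub_C_ne_zero _) h3.symm
    have h3 : (P.map (AA Y).subtype).map (Y.σ : W →+* W) = P.map (AA Y).subtype := by
      rw [h1, Polynomial.map_prod]
      refine Eq.trans (Finset.prod_congr rfl fun i _ => ?_) h2
      rw [Polynomial.map_sub, map_X, map_C, Function.iterate_succ_apply']
      rfl
    intro l
    have h4 := congrArg (fun p : W[X] => p.coeff l) h3
    simp only [coeff_map] at h4
    exact h4
  -- Frobenius on the coefficients
  have hco : ∀ l, mk (P.coeff l) ^ p ^ a = mk (P.coeff l) := by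
    intro l
    obtain ⟨c, hc⟩ := Y.exists_base (hfix l)
    have hc1 : ‖c‖ ≤ 1 := by
      rw [← Y.norm_alg c, hc]
      exact (P.coeff l).2
    rw [← map_pow, ← sub_eq_zero, ← map_sub]
    refine Ideal.Quotient.eq_zero_iff_mem.mpr ?_
    rw [mem_II]
    have h1 : ((P.coeff l ^ p ^ a - P.coeff l : AA Y) : W) = algebraMap k W (c ^ p ^ a - c) := by
      rw [map_sub, map_pow, hc]
      rfl
    rw [h1, Y.norm_alg]
    exact hq c hc1
  have hm0 : 0 ∈ Finset.range Y.m := Finset.mem_range.mpr Y.m0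
  have hev : ∀ x : κ, (P.map mk).eval x = ∏ i ∈ Finset.range Y.m, (x - mk (cj Y i)) := by
    intro x
    rw [Polynomial.map_prod, eval_prod]
    refine Finset.prod_congr rfl fun i _ => ?_
    rw [Polynomial.map_sub, map_X, map_C, eval_sub, eval_X, eval_C]
  have h0 : (P.map mk).eval (mk (cj Y 0)) = 0 := by
    rw [hev]
    exact Finset.prod_eq_zero hm0 (sub_self _)
  have h1 : (P.map mk).eval (mk (cj Y 0) ^ p ^ a) = 0 := by
    have h2 : (P.map mk).eval (mk (cj Y 0) ^ p ^ a) = ((P.map mk).eval (mk (cj Y 0))) ^ p ^ a := by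
      rw [eval_eq_sum_range, eval_eq_sum_range, sum_pow_char_pow]
      refine Finset.sum_congr rfl fun l _ => ?_
      rw [mul_pow, coeff_map, hco, ← pow_mul, ← pow_mul, mul_comm l]
    rw [h2, h0, zero_pow (pow_ne_zero _ hp.ne_zero)]
  rw [hev] at h1
  obtain ⟨i, _, hi⟩ := Finset.prod_eq_zero_iff.mp h1
  refine ⟨i, R.pow_inj ?_⟩
  rw [← map_pow, ← map_sub] at hi
  have h2 := Ideal.Quotient.eq_zero_iff_mem.mp hi
  rw [mem_II] at h2
  have h3 : ((cj Y 0 ^ p ^ a - cj Y i : AA Y) : W) = Y.ω ^ p ^ a - Y.ω ^ (R.j ^ i) := by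
    rw [← cj_coe Y i]
    rfl
  rw [h3, map_sub, map_pow, map_pow, Y.hω] at h2
  exact h2

include Y in
theorem pow_card_eq {p a : ℕ} (hp : p.Prime) (hp1 : ‖(p : k)‖ < 1)
    (hq : ∀ c : k, ‖c‖ ≤ 1 → ‖c ^ p ^ a - c‖ < 1) : R.ζ ^ (p ^ a) ^ Y.m = R.ζ := by
  obtain ⟨i, hi⟩ := exists_frob Y hp hp1 hq
  have h1 : ∀ t : ℕ, R.ζ ^ (p ^ a) ^ t = R.ζ ^ (R.j ^ (i * t)) := by
    intro t
    induction t with
    | zero => simp
    | succ t ih =>
      rw [pow_succ, pow_mul, ih, ← pow_mul, mul_comm, pow_mul, hi, ← pow_mul, ← pow_add]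
      congr 2
      ring
  rw [h1]
  have h2 : ∀ t : ℕ, R.ζ ^ (R.j ^ (Y.m * t)) = R.ζ := by
    intro t
    induction t with
    | zero => simp
    | succ t ih =>
      rw [Nat.mul_succ, pow_add, pow_mul, ih, Y.per]
  rw [mul_comm]
  exact h2 i

end frob

section spl

variable {k E : Type} [NontriviallyNormedField k] [CompleteSpace k] [NormedDivisionRing E]
  [NormedAlgebra k E] [IsUltrametricDist E] [FiniteDimensional k E] [CharZero k]
  [Algebra.IsCentral k E]

/-- Splitting, normed version. -/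
theorem spl_frame (R : Frame E) {m : ℕ} (hm : finrank k E = m ^ 2) {p a : ℕ} (hp : p.Prime)
    (ha : 0 < a)
    (hp1 : ‖(p : k)‖ < 1) (hq : ∀ c : k, ‖c‖ ≤ 1 → ‖c ^ p ^ a - c‖ < 1) {F : Type} [Field F]
    (φ : k →+* F) {ξ : F} (hξ : IsPrimitiveRoot ξ ((p ^ a) ^ m - 1)) : Spl E m φ := by
  classical
  obtain ⟨W, _, _, _, ⟨Y⟩⟩ := exists_cyc (k := k) R
  obtain ⟨X0, hX, hdim⟩ := Y.exists_X
  let Xa : E →ₐ[k] Matrix (Fin Y.m) (Fin Y.m) W :=
    { X0 with
      commutes' := fun c => by
        change X0 (algebraMap k E c) = _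
        rw [← Y.ι.commutes, hX]
        ext i j
        rw [Matrix.algebraMap_matrix_apply, Matrix.diagonal_apply, Y.σ_alg] }
  rw [Module.finrank_fin_fun] at hdim
  -- dimensions
  have h1 : Y.m ≤ finrank k W := by
    let s : Fin Y.m → (W →ₐ[k] W) := fun i => Y.σ ^ (i : ℕ)
    have hs : ∀ i : Fin Y.m, s i Y.ω = Y.ω ^ (R.j ^ (i : ℕ)) := by
      intro i
      have h2 : ∀ n : ℕ, (Y.σ ^ n) Y.ω = Y.σ^[n] Y.ω := by
        intro n
        rw [AlgHom.coe_pow]
      rw [← Y.σ_ω]
      exact h2 i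
    have hinj : Function.Injective s := by
      intro a b hab
      by_contra hne
      have hne' : (a : ℕ) ≠ b := fun h => hne (Fin.ext h)
      have h2 := congrArg (fun g : W →ₐ[k] W => Y.ι (g Y.ω)) hab
      simp only [hs, map_pow, Y.hω] at h2
      have h3 := Y.norm_ζ_sub hne' a.2 b.2
      rw [h2, sub_self, norm_zero] at h3
      exact zero_ne_one h3
    have h2 := Nat.card_le_card_of_injective s hinj
    rw [Nat.card_eq_fintype_card, Fintype.card_fin] at h2
    exact h2.trans (card_algHom_le_finrank k W W)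
  have h2 : finrank k E ≤ Y.m * Y.m := by
    have h3 := Vale.Agent.P011S.SF.split_indep Y.m0 Xa (finBasis k E)
      (finBasis k E).linearIndependent
    have h4 := h3.fintype_card_le_finrank
    rw [Fintype.card_fin, Module.finrank_matrix, Fintype.card_fin, Module.finrank_self,
      mul_one] at h4
    exact h4
  have h3 : finrank k E = Y.m ^ 2 := by
    apply le_antisymm (by rw [pow_two]; exact h2)
    rw [← hdim, pow_two]
    exact Nat.mul_le_mul_left _ h1
  have h4 : m = Y.m := Nat.pow_left_injective (n := 2) (by norm_num) (hm.symm.trans h3)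
  have h5 : finrank k W = m := by
    rw [h3, pow_two] at hdim
    rw [h4]
    exact Nat.eq_of_mul_eq_mul_left Y.m0 hdim
  -- the maximal subfield splits
  have h6 : Spl E m (algebraMap k W) := spl_of_maxfield hm h5 Y.ι
  -- the maximal subfield embeds
  let _ : Algebra k F := φ.toAlgebra
  have hpos : 0 < (p ^ a) ^ m := pow_pos (pow_pos hp.pos _) _
  have hω : Y.ω ^ ((p ^ a) ^ m) = Y.ω := by
    apply Y.inj
    rw [map_pow, Y.hω, h4]
    exact pow_card_eq Y hp hp1 hq
  have hω0 : Y.ω ≠ 0 := by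
    intro h
    have h7 := Y.norm_ω 1
    rw [pow_one, h, map_zero, norm_zero] at h7
    exact zero_ne_one h7
  have hω1 : Y.ω ^ ((p ^ a) ^ m - 1) = 1 := by
    apply mul_right_cancel₀ hω0
    rw [← pow_succ, Nat.sub_add_cancel hpos, hω, one_mul]
  have hdvd : minpoly k Y.ω ∣ X ^ ((p ^ a) ^ m - 1) - 1 := by
    apply minpoly.dvd
    rw [map_sub, map_pow, aeval_X, map_one, hω1, sub_self]
  have hspl : ((minpoly k Y.ω).map (algebraMap k F)).Splits := by
    have h7 : (X ^ ((p ^ a) ^ m - 1) - C (1 : F)).Splits := X_pow_sub_one_splits hξ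
    have h8 : (X ^ ((p ^ a) ^ m - 1) - C (1 : F)) ≠ 0 := by
      apply X_pow_sub_C_ne_zero
      have h9 : 1 < (p ^ a) ^ m :=
        Nat.one_lt_pow (h4 ▸ Y.m0.ne') (Nat.one_lt_pow ha.ne' hp.one_lt)
      omega
    refine h7.of_dvd h8 ?_
    have h9 := Polynomial.map_dvd (algebraMap k F) hdvd
    rw [Polynomial.map_sub, Polynomial.map_pow, map_X, Polynomial.map_one] at h9
    rw [map_one]
    exact h9
  have htop : IntermediateField.adjoin k ({Y.ω} : Set W) = ⊤ := by
    rw [eq_top_iff]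
    intro w _
    obtain ⟨r, rfl⟩ := Y.gen w
    have h7 : Y.ω ∈ IntermediateField.adjoin k ({Y.ω} : Set W) :=
      IntermediateField.mem_adjoin_simple_self k Y.ω
    have h8 := IntermediateField.aeval_coe (K := k) (L := W)
      (S := IntermediateField.adjoin k ({Y.ω} : Set W)) (x := ⟨Y.ω, h7⟩) r
    change aeval Y.ω r = _ at h8
    rw [h8]
    exact Subtype.prop _
  obtain ⟨g⟩ := IntermediateField.nonempty_algHom_of_adjoin_splits (F := k) (E := W) (K := F)
    (S := {Y.ω}) (fun s hs => by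
      rw [Set.mem_singleton_iff.mp hs]
      exact ⟨Algebra.IsIntegral.isIntegral _, hspl⟩) htop
  have h7 := h6.comp (g : W →+* F)
  have h8 : (g : W →+* F).comp (algebraMap k W) = φ := by
    ext x
    exact g.commutes x
  rwa [h8] at h7

end spl

/-- **Splitting of a local central division algebra by a field with enough roots of unity.** -/
theorem spl_local {k E : Type} [NontriviallyNormedField k] [IsUltrametricDist k] [ProperSpace k]
    [CharZero k] [DivisionRing E] [Algebra k E] [FiniteDimensional k E] [Algebra.IsCentral k E]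
    {m : ℕ} (hm : finrank k E = m ^ 2) {p a : ℕ} (hp : p.Prime) (ha : 0 < a)
    (hp1 : ‖(p : k)‖ < 1) (hq : ∀ c : k, ‖c‖ ≤ 1 → ‖c ^ p ^ a - c‖ < 1) {F : Type} [Field F]
    (φ : k →+* F) {ξ : F} (hξ : IsPrimitiveRoot ξ ((p ^ a) ^ m - 1)) : Spl E m φ := by
  let _ : NormedDivisionRing E := ndr k
  let _ : NormedAlgebra k E :=
    { (inferInstance : Algebra k E) with
      norm_smul_le := fun c x => by
        change nm k (c • x) ≤ ‖c‖ * nm k x
        rw [Algebra.smul_def, nm_mul, nm_algebraMap] }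
  have hU : IsUltrametricDist E := IsUltrametricDist.isUltrametricDist_of_forall_norm_add_le_max_norm
    (fun x y => nm_add_le_max k x y)
  have : ProperSpace E := FiniteDimensional.proper k E
  obtain ⟨c, hc0, hc1⟩ := NormedField.exists_norm_lt_one k
  have hc : ‖algebraMap k E c‖ = ‖c‖ := nm_algebraMap k c
  have hcne : algebraMap k E c ≠ 0 := by
    rw [← norm_ne_zero_iff, hc]
    exact hc0.ne'
  obtain ⟨R⟩ := exists_frame (algebraMap k E c) hcne (by rw [hc]; exact hc1)
  exact spl_frame R hm hp ha hp1 hq φ hξ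

end Vale.Agent.P011.H978.Cyc
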