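import Mathlib.NumberTheory.Multiplicity
import Mathlib.NumberTheory.MulChar.Lemmas
import Mathlib.NumberTheory.DirichletCharacter.Basic
import Mathlib.NumberTheory.LegendreSymbol.AddCharacter
import Mathlib.RingTheory.RootsOfUnity.Complex
import Mathlib.FieldTheory.Finite.Basic
import Mathlib.GroupTheory.FiniteAbelian.Duality
import Mathlib.RingTheory.RootsOfUnity.AlgebraicallyClosed
import Mathlib.Data.ZMod.Units
import Mathlib.Analysis.Complex.Polynomial.Basic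
import Mathlib.Tactic

/-!
Characters of odd order, unramified at given primes, with values of large order at these primes.
-/

namespace Vale.Agent.P011.H978.Cyc

/-- A prime `r` different from `l` with `l ^ (N + 1)` dividing the order of `p` modulo `r`. -/
theorem exists_prime_factor {l p : ℕ} (hl : l.Prime) (hl2 : l ≠ 2) (hp : 2 ≤ p) (N : ℕ) :
    ∃ r : ℕ, r.Prime ∧ r ≠ l ∧ r ∣ p ^ l ^ (N + 1) - 1 ∧ ¬ r ∣ p ^ l ^ N - 1 := by
  set x : ℕ := p ^ l ^ N with hx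
  have hx2 : 2 ≤ x := by
    calc 2 ≤ p := hp
      _ = p ^ 1 := (pow_one p).symm
      _ ≤ p ^ l ^ N := Nat.pow_le_pow_right (by omega) (Nat.one_le_pow _ _ hl.pos)
  have hxl : p ^ l ^ (N + 1) = x ^ l := by rw [hx, ← pow_mul, pow_succ]
  set S : ℕ := ∑ i ∈ Finset.range l, x ^ i with hS
  have hfac : (x ^ l - 1 : ℕ) = (x - 1) * S := by
    have h1 := geom_sum_mul (x : ℤ) l
    have h2 : (1 : ℕ) ≤ x ^ l := Nat.one_le_pow _ _ (by omega)
    zify [h2, (by omega : 1 ≤ x)]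
    rw [← h1, mul_comm, hS]
    push_cast
    rfl
  have hl1 := hl.one_lt
  have hSgt : l < S := by
    have h1 : ∑ i ∈ Finset.range l, 1 < S := by
      refine Finset.sum_lt_sum (fun i _ => Nat.one_le_pow _ _ (by omega)) ⟨1, ?_, ?_⟩
      · simpa using hl1
      · simpa using (by omega : 1 < x)
    simpa using h1
  -- a prime factor of `S` different from `l`
  have hex : ∃ r : ℕ, r.Prime ∧ r ≠ l ∧ r ∣ S := by
    by_contra hcon
    push Not at hcon
    have hSpow : ∃ a, S = l ^ a := by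
      refine ⟨_, Nat.eq_prime_pow_of_unique_prime_dvd (by omega) fun {d} hd hdS => ?_⟩
      by_contra hne
      exact hcon d hd hne hdS
    obtain ⟨a, ha⟩ := hSpow
    have ha1 : a ≠ 0 := by
      rintro rfl
      rw [pow_zero] at ha
      omega
    have hlS : l ∣ S := ha ▸ dvd_pow_self l ha1
    have hlx : l ∣ x - 1 := by
      have h1 : l ∣ x ^ l - 1 := hfac ▸ hlS.mul_left _
      have h2 : (x ^ l : ZMod l) = x := by
        have : Fact l.Prime := ⟨hl⟩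
        exact ZMod.pow_card _
      have h3 : ((x ^ l - 1 : ℕ) : ZMod l) = 0 := (ZMod.natCast_eq_zero_iff _ _).mpr h1
      rw [Nat.cast_sub (Nat.one_le_pow _ _ (by omega)), Nat.cast_pow, h2, ← Nat.cast_sub
        (by omega : 1 ≤ x)] at h3
      exact (ZMod.natCast_eq_zero_iff _ _).mp h3
    -- the multiplicity of `l` in `S` is one
    have hodd : Odd l := hl.odd_of_ne_two hl2
    have h2 : ¬ l ∣ x := by
      intro h
      have h3 : l ∣ 1 := by
        have := Nat.dvd_sub h hlx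
        rwa [show x - (x - 1) = 1 by omega] at this
      exact hl.one_lt.ne' (Nat.dvd_one.mp h3)
    have h3 : padicValNat l (x ^ l - 1 ^ l) = padicValNat l (x - 1) + padicValNat l l := by
      have : Fact l.Prime := ⟨hl⟩
      exact padicValNat.pow_sub_pow hodd (by omega) hlx h2 hl.ne_zero
    have : Fact l.Prime := ⟨hl⟩
    rw [one_pow, hfac, padicValNat.mul (by omega) (by omega), padicValNat_self] at h3
    have h4 : padicValNat l S = a := by rw [ha, padicValNat.prime_pow]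
    have h5 : a = 1 := by omega
    rw [h5, pow_one] at ha
    omega
  obtain ⟨r, hr, hrl, hrS⟩ := hex
  refine ⟨r, hr, hrl, ?_, ?_⟩
  · rw [hxl, hfac]
    exact hrS.mul_left _
  · intro h
    apply hrl
    -- `S ≡ l` modulo `x - 1`
    have h1 : ((S : ℕ) : ZMod r) = l := by
      have h2 : (x : ZMod r) = 1 := by
        have h3 : ((x - 1 : ℕ) : ZMod r) = 0 := (ZMod.natCast_eq_zero_iff _ _).mpr h
        rw [Nat.cast_sub (by omega), Nat.cast_one, sub_eq_zero] at h3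
        exact h3
      rw [hS]
      push_cast
      simp [h2]
    have h2 : ((l : ℕ) : ZMod r) = 0 := by
      rw [← h1]
      exact (ZMod.natCast_eq_zero_iff _ _).mpr hrS
    exact (Nat.prime_dvd_prime_iff_eq hr hl).mp ((ZMod.natCast_eq_zero_iff _ _).mp h2)

/-- One prime: a character of `l`-power order, of modulus prime to `P`, whose value at `p` has large
order. -/
theorem exists_char_one {l p : ℕ} (hl : l.Prime) (hl2 : l ≠ 2) (P : Finset ℕ)
    (hP : ∀ r ∈ P, r.Prime) (hp : p.Prime) (N : ℕ) :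
    ∃ (Q : ℕ) (_ : 0 < Q) (χ : (ZMod Q)ˣ →* ℂˣ) (M : ℕ), (∀ r ∈ P, Nat.Coprime r Q) ∧
      (∀ x, χ x ^ l ^ M = 1) ∧ ∀ u : (ZMod Q)ˣ, (u : ZMod Q) = (p : ZMod Q) → χ u ^ l ^ N ≠ 1 := by
  set B : ℕ := ∑ r ∈ P, r with hB
  obtain ⟨r, hr, hrl, hr1, hr2⟩ := exists_prime_factor hl hl2 hp.two_le (N + B)
  have hfr : Fact r.Prime := ⟨hr⟩
  have hp0 : ∀ m, 1 ≤ p ^ m := fun m => Nat.one_le_pow _ _ hp.pos
  have hpr : ¬ r ∣ p := by
    intro h
    have h1 : r ∣ p ^ l ^ (N + B + 1) := dvd_pow h (pow_ne_zero _ hl.ne_zero)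
    have h2 : r ∣ 1 := by
      have := Nat.dvd_sub h1 hr1
      rwa [Nat.sub_sub_self (hp0 _)] at this
    exact hr.one_lt.ne' (Nat.dvd_one.mp h2)
  have hpz : (p : ZMod r) ≠ 0 := fun h => hpr ((ZMod.natCast_eq_zero_iff _ _).mp h)
  let u : (ZMod r)ˣ := Units.mk0 (p : ZMod r) hpz
  have hpow : ∀ m, u ^ m = 1 ↔ r ∣ p ^ m - 1 := by
    intro m
    rw [← ZMod.natCast_eq_zero_iff, Nat.cast_sub (hp0 m), Nat.cast_pow, Nat.cast_one, sub_eq_zero,
      ← Units.val_inj, Units.val_pow_eq_pow_val, Units.val_one]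
    rfl
  have hu1 : u ^ l ^ (N + B + 1) = 1 := (hpow _).mpr hr1
  have hu2 : u ^ l ^ (N + B) ≠ 1 := fun h => hr2 ((hpow _).mp h)
  have hord : orderOf u = l ^ (N + B + 1) := by
    have : Fact l.Prime := ⟨hl⟩
    exact orderOf_eq_prime_pow hu2 hu1
  have hdvd : l ^ (N + B + 1) ∣ r - 1 := by
    rw [← hord, ← ZMod.card_units r]
    exact orderOf_dvd_card
  have hr1' : 0 < r - 1 := by have := hr.two_le; omega
  have hgt : B < r := by
    have h1 := Nat.le_of_dvd hr1' hdvd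
    have h2 : N + B + 1 < l ^ (N + B + 1) := Nat.lt_pow_self hl.one_lt
    omega
  -- the prime to `l` part
  obtain ⟨a, b, hb, hab⟩ := Nat.exists_eq_pow_mul_and_not_dvd hr1'.ne' l hl.one_lt.ne'
  have hcop : Nat.Coprime (l ^ (N + B + 1)) b :=
    Nat.Coprime.pow_left _ ((Nat.Prime.coprime_iff_not_dvd hl).mpr hb)
  have hne : u ^ (b * l ^ N) ≠ 1 := by
    intro h
    have h1 := orderOf_dvd_of_pow_eq_one h
    rw [hord] at h1
    have h2 := hcop.dvd_of_dvd_mul_left h1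
    have h3 := (Nat.pow_dvd_pow_iff_le_right hl.one_lt).mp h2
    omega
  have hexp : NeZero (Monoid.exponent (ZMod r)ˣ) := ⟨Monoid.exponent_ne_zero_of_finite⟩
  obtain ⟨φ, hφ⟩ := CommGroup.exists_apply_ne_one_of_hasEnoughRootsOfUnity (ZMod r)ˣ ℂ hne
  refine ⟨r, hr.pos, φ ^ b, a, ?_, ?_, ?_⟩
  · intro s hs
    refine (Nat.coprime_primes (hP s hs) hr).mpr ?_
    rintro rfl
    exact absurd (Finset.single_le_sum (f := fun r => r) (fun _ _ => Nat.zero_le _) hs) (by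
      rw [← hB]; omega)
  · intro x
    rw [MonoidHom.pow_apply, ← pow_mul, mul_comm, ← hab, ← map_pow, ZMod.units_pow_card_sub_one_eq_one,
      map_one]
  · intro v hv
    have h1 : v = u := Units.ext hv
    rw [h1, MonoidHom.pow_apply, ← pow_mul, ← map_pow]
    exact hφ

/-- The value of a product of characters. -/
theorem exists_mul {Q₁ Q₂ : ℕ} (χ₁ : (ZMod Q₁)ˣ →* ℂˣ)
    (χ₂ : (ZMod Q₂)ˣ →* ℂˣ) : ∃ χ : (ZMod (Q₁ * Q₂))ˣ →* ℂˣ,
      (∀ x, ∃ x₁ x₂, χ x = χ₁ x₁ * χ₂ x₂) ∧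
      ∀ (p : ℕ) (x : (ZMod (Q₁ * Q₂))ˣ), (x : ZMod (Q₁ * Q₂)) = (p : ZMod (Q₁ * Q₂)) →
        ∃ (x₁ : (ZMod Q₁)ˣ) (x₂ : (ZMod Q₂)ˣ), (x₁ : ZMod Q₁) = (p : ZMod Q₁) ∧
          (x₂ : ZMod Q₂) = (p : ZMod Q₂) ∧ χ x = χ₁ x₁ * χ₂ x₂ := by
  refine ⟨(χ₁.comp (ZMod.unitsMap (dvd_mul_right Q₁ Q₂))) *
    (χ₂.comp (ZMod.unitsMap (dvd_mul_left Q₂ Q₁))), fun x => ⟨_, _, rfl⟩, fun p x hx =>
    ⟨ZMod.unitsMap (dvd_mul_right Q₁ Q₂) x, ZMod.unitsMap (dvd_mul_left Q₂ Q₁) x, ?_, ?_, rfl⟩⟩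
  · rw [ZMod.unitsMap_val, hx, ZMod.cast_natCast (dvd_mul_right Q₁ Q₂)]
  · rw [ZMod.unitsMap_val, hx, ZMod.cast_natCast (dvd_mul_left Q₂ Q₁)]

/-- Many primes: a character of `l`-power order, of modulus prime to `P`, whose values at the
elements of `P` have large order. -/
theorem exists_char_l {l : ℕ} (hl : l.Prime) (hl2 : l ≠ 2) (P : Finset ℕ)
    (hP : ∀ r ∈ P, r.Prime) (A : Finset ℕ) (hA : A ⊆ P) : ∀ N : ℕ,
    ∃ (Q : ℕ) (_ : 0 < Q) (χ : (ZMod Q)ˣ →* ℂˣ) (M : ℕ), (∀ r ∈ P, Nat.Coprime r Q) ∧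
      (∀ x, χ x ^ l ^ M = 1) ∧ ∀ p ∈ A, ∀ u : (ZMod Q)ˣ, (u : ZMod Q) = (p : ZMod Q) →
        χ u ^ l ^ N ≠ 1 := by
  have hmono : ∀ {z : ℂˣ} {a b : ℕ}, a ≤ b → z ^ l ^ a = 1 → z ^ l ^ b = 1 := by
    intro z a b hab h
    obtain ⟨c, rfl⟩ := Nat.exists_eq_add_of_le hab
    rw [pow_add, pow_mul, h, one_pow]
  induction A using Finset.induction_on with
  | empty =>
    intro N
    exact ⟨1, one_pos, 1, 0, fun r _ => Nat.coprime_one_right r, fun x => by simp,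
      fun p hp => absurd hp (Finset.notMem_empty p)⟩
  | insert p₀ A hp₀ ih =>
    intro N
    have hp₀P : p₀ ∈ P := hA (Finset.mem_insert_self _ _)
    obtain ⟨Q₀, hQ₀, χ₀, M₀, h1, h2, h3⟩ := exists_char_one hl hl2 P hP (hP p₀ hp₀P) N
    obtain ⟨Q', hQ', χ', M', h1', h2', h3'⟩ :=
      ih (fun r hr => hA (Finset.mem_insert_of_mem hr)) (max N M₀)
    by_cases hc : ∀ u : (ZMod Q')ˣ, (u : ZMod Q') = (p₀ : ZMod Q') → χ' u ^ l ^ N ≠ 1
    · refine ⟨Q', hQ', χ', M', h1', h2', fun p hp u hu => ?_⟩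
      rcases Finset.mem_insert.mp hp with rfl | hp
      · exact hc u hu
      · exact fun h => h3' p hp u hu (hmono (le_max_left _ _) h)
    · push Not at hc
      obtain ⟨u₀, hu₀, hu₀'⟩ := hc
      obtain ⟨χ, hχ, hχp⟩ := exists_mul χ' χ₀
      refine ⟨Q' * Q₀, Nat.mul_pos hQ' hQ₀, χ, max M' M₀, fun r hr =>
        Nat.Coprime.mul_right (h1' r hr) (h1 r hr), fun x => ?_, fun p hp u hu h => ?_⟩
      · obtain ⟨x₁, x₂, hx⟩ := hχ x
        rw [hx, mul_pow, hmono (le_max_left _ _) (h2' x₁), hmono (le_max_right _ _) (h2 x₂),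
          one_mul]
      · obtain ⟨x₁, x₂, hx₁, hx₂, hx⟩ := hχp p u hu
        rcases Finset.mem_insert.mp hp with rfl | hp
        · have h4 : x₁ = u₀ := Units.ext (hx₁.trans hu₀.symm)
          rw [hx, mul_pow, h4, hu₀', one_mul] at h
          exact h3 x₂ hx₂ h
        · have h4 := hmono (le_max_left N M₀) h
          rw [hx, mul_pow, hmono (le_max_right N M₀) (h2 x₂), mul_one] at h4
          exact h3' p hp x₁ hx₁ h4

/-- **Characters with values of large order**, of modulus prime to `P`. -/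
theorem exists_char (P : Finset ℕ) (hP : ∀ r ∈ P, r.Prime) {n : ℕ} (hn : Odd n) :
    ∃ (Q : ℕ) (_ : 0 < Q) (χ : (ZMod Q)ˣ →* ℂˣ) (M : ℕ), (∀ r ∈ P, Nat.Coprime r Q) ∧
      (∀ x, χ x ^ n ^ M = 1) ∧ ∀ p ∈ P, ∀ u : (ZMod Q)ˣ, (u : ZMod Q) = (p : ZMod Q) →
        ∀ m : ℕ, χ u ^ m = 1 → n ∣ m := by
  induction n using Nat.recOnPosPrimePosCoprime with
  | prime_pow l a hl ha =>
    have hl2 : l ≠ 2 := by
      rintro rfl
      exact (Nat.not_odd_iff_even.mpr ((even_two).pow_of_ne_zero (by omega))) hn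
    obtain ⟨Q, hQ, χ, M, h1, h2, h3⟩ := exists_char_l hl hl2 P hP P subset_rfl (a - 1)
    refine ⟨Q, hQ, χ, M, h1, fun x => ?_, fun p hp u hu m hm => ?_⟩
    · rw [← pow_mul]
      obtain ⟨c, hc⟩ := Nat.exists_eq_add_of_le (Nat.le_mul_of_pos_left M ha)
      rw [hc, pow_add, pow_mul, h2, one_pow]
    · -- the order of the value is a power of `l`
      have h4 := h3 p hp u hu
      have h5 := h2 u
      have h6 := orderOf_dvd_of_pow_eq_one h5
      obtain ⟨k, _, hk⟩ := (Nat.dvd_prime_pow hl).mp h6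
      have h7 : a ≤ k := by
        by_contra hcon
        apply h4
        rw [← orderOf_dvd_iff_pow_eq_one, hk]
        exact pow_dvd_pow _ (by omega)
      exact (pow_dvd_pow l h7).trans (hk ▸ orderOf_dvd_of_pow_eq_one hm)
  | zero => exact absurd hn (by decide)
  | one => exact ⟨1, one_pos, 1, 0, fun r _ => Nat.coprime_one_right r, fun x => by simp,
      fun p hp u hu m _ => one_dvd m⟩
  | coprime a b ha hb hab iha ihb =>
    obtain ⟨hoa, hob⟩ := Nat.odd_mul.mp hn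
    obtain ⟨Q₁, hQ₁, χ₁, M₁, h1, h2, h3⟩ := iha hoa
    obtain ⟨Q₂, hQ₂, χ₂, M₂, h1', h2', h3'⟩ := ihb hob
    obtain ⟨χ, hχ, hχp⟩ := exists_mul χ₁ χ₂
    have hmul : ∀ {z : ℂˣ} {c d : ℕ}, c ∣ d → z ^ c = 1 → z ^ d = 1 := by
      rintro z c _ ⟨e, rfl⟩ h
      rw [pow_mul, h, one_pow]
    refine ⟨Q₁ * Q₂, Nat.mul_pos hQ₁ hQ₂, χ, M₁ + M₂, fun r hr =>
        Nat.Coprime.mul_right (h1 r hr) (h1' r hr), fun x => ?_, fun p hp u hu m hm => ?_⟩
    · obtain ⟨x₁, x₂, hx⟩ := hχ x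
      rw [hx, mul_pow, hmul ?_ (h2 x₁), hmul ?_ (h2' x₂), one_mul]
      · rw [mul_pow]
        exact (pow_dvd_pow b (Nat.le_add_left _ _)).mul_left _
      · rw [mul_pow]
        exact (pow_dvd_pow a (Nat.le_add_right _ _)).mul_right _
    · obtain ⟨x₁, x₂, hx₁, hx₂, hx⟩ := hχp p u hu
      rw [hx, mul_pow] at hm
      have hca : a ∣ m := by
        have h4 : χ₁ x₁ ^ (m * b ^ M₂) = 1 := by
          have h5 := congrArg (· ^ b ^ M₂) hm
          simp only [mul_pow, one_pow] at h5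
          rwa [← pow_mul, ← pow_mul, mul_comm m, pow_mul, pow_mul, h2', one_pow, mul_one, ← pow_mul,
            mul_comm] at h5
        exact (Nat.Coprime.pow_right M₂ hab).dvd_of_dvd_mul_right (h3 p hp x₁ hx₁ _ h4)
      have hcb : b ∣ m := by
        have h4 : χ₂ x₂ ^ (m * a ^ M₁) = 1 := by
          have h5 := congrArg (· ^ a ^ M₁) hm
          simp only [mul_pow, one_pow] at h5
          rwa [← pow_mul, ← pow_mul, mul_comm m, pow_mul, pow_mul, h2, one_pow, one_mul, ← pow_mul,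
            mul_comm] at h5
        exact (Nat.Coprime.pow_right M₁ hab.symm).dvd_of_dvd_mul_right (h3' p hp x₂ hx₂ _ h4)
      exact hab.mul_dvd_of_dvd_of_dvd hca hcb

end Vale.Agent.P011.H978.Cyc
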