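import Vale.Agent.P011.H978.Cyc.Fld
import Vale.Agent.P011.H978.Cyc.Loc
import Vale.Agent.P011.Tpl.H359.Abhn

/-!
**Every central division algebra of odd degree over a number field is split by a cyclic extension
of odd degree.**
-/

open NumberField IsDedekindDomain Module Polynomial

namespace Vale.Agent.P011.H978.Cyc

open Vale.Agent.P011.W Vale.Agent.P011.Arith Vale.Agent.P011.Even
open Vale.Agent.P011.Even.LocDiv (Frame exists_frame)

section roots

variable {L : Type} [Field L] [NumberField L]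

/-- A completion contains a primitive root of unity of order `N w - 1`. -/
theorem exists_root (w : HeightOneSpectrum (𝓞 L)) :
    ∃ ξ : w.adicCompletion L, IsPrimitiveRoot ξ (Nat.card (𝓞 L ⧸ w.asIdeal) - 1) := by
  classical
  let _ := nnf w
  have hu := isUltra w
  obtain ⟨c, hc0, hc1⟩ := NormedField.exists_norm_lt_one (w.adicCompletion L)
  obtain ⟨R⟩ := exists_frame (E := w.adicCompletion L) c (norm_pos_iff.mp hc0) hc1
  have hζ : IsPrimitiveRoot R.ζ R.N :=
    { pow_eq_one := R.ζN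
      dvd_of_pow_eq_one := fun i hi => (R.dvd i).mp (by rw [hi, sub_self, norm_zero]; exact one_pos) }
  -- a generator of the multiplicative group of the residue field
  have hmax : w.asIdeal.IsMaximal := w.isMaximal
  let _ : Field (𝓞 L ⧸ w.asIdeal) := Ideal.Quotient.field w.asIdeal
  have hfin : Finite (𝓞 L ⧸ w.asIdeal) := Ideal.finiteQuotientOfFreeOfNeBot w.asIdeal w.ne_bot
  let _ := Fintype.ofFinite (𝓞 L ⧸ w.asIdeal)
  obtain ⟨g, hg⟩ := IsCyclic.exists_generator (α := (𝓞 L ⧸ w.asIdeal)ˣ)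
  have hord : orderOf g = Nat.card (𝓞 L ⧸ w.asIdeal) - 1 := by
    rw [orderOf_eq_card_of_forall_mem_zpowers hg, Nat.card_eq_fintype_card, Fintype.card_units,
      Nat.card_eq_fintype_card]
  obtain ⟨a, ha⟩ := Ideal.Quotient.mk_surjective (I := w.asIdeal) (g : 𝓞 L ⧸ w.asIdeal)
  let ι : 𝓞 L →+* w.adicCompletion L := (algebraMap L (w.adicCompletion L)).comp (algebraMap (𝓞 L) L)
  have hι : ∀ x : 𝓞 L, ‖ι x‖ < 1 ↔ x ∈ w.asIdeal := by
    intro x
    rw [norm_lt_one_iff]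
    change Valued.v (algebraMap L (w.adicCompletion L) (algebraMap (𝓞 L) L x)) < 1 ↔ _
    rw [valued_alg]
    exact w.valuation_lt_one_iff_mem x
  have hι1 : ∀ x : 𝓞 L, ‖ι x‖ ≤ 1 := by
    intro x
    rw [norm_le_one_iff]
    change Valued.v (algebraMap L (w.adicCompletion L) (algebraMap (𝓞 L) L x)) ≤ 1
    rw [valued_alg]
    exact w.valuation_le_one x
  have ha1 : ‖ι a‖ = 1 := by
    refine le_antisymm (hι1 a) (not_lt.mp fun h => ?_)
    have h1 := Ideal.Quotient.eq_zero_iff_mem.mpr ((hι a).mp h)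
    rw [ha] at h1
    exact g.ne_zero h1
  obtain ⟨i, hi⟩ := R.gen (ι a) ha1
  have hdvd : Nat.card (𝓞 L ⧸ w.asIdeal) - 1 ∣ R.N := by
    rw [← hord]
    apply orderOf_dvd_of_pow_eq_one
    apply Units.ext
    rw [Units.val_pow_eq_pow_val, ← ha, ← map_pow, Units.val_one, ← map_one (Ideal.Quotient.mk _),
      Ideal.Quotient.eq, ← hι, map_sub, map_pow, map_one]
    have h1 : (R.ζ ^ i) ^ R.N = 1 := by rw [← pow_mul, mul_comm, pow_mul, R.ζN, one_pow]
    rw [← h1]
    refine Vale.Agent.P011.Even.LocDiv.pow_close ha1.le ?_ hi _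
    rw [norm_pow, R.norm_ζ, one_pow]
  obtain ⟨b, hb⟩ := hdvd
  have h2 : R.N = b * (Nat.card (𝓞 L ⧸ w.asIdeal) - 1) := by rw [hb, mul_comm]
  exact ⟨R.ζ ^ b, hζ.pow R.hN h2⟩

/-- The residue field of a completion. -/
theorem pow_card_close (v : HeightOneSpectrum (𝓞 L)) (c : v.adicCompletion L) (hc : ‖c‖ ≤ 1) :
    ‖c ^ Nat.card (𝓞 L ⧸ v.asIdeal) - c‖ < 1 := by
  classical
  let _ := nnf v
  have hu := isUltra v
  have hmax : v.asIdeal.IsMaximal := v.isMaximal
  let _ : Field (𝓞 L ⧸ v.asIdeal) := Ideal.Quotient.field v.asIdeal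
  have hfin : Finite (𝓞 L ⧸ v.asIdeal) := Ideal.finiteQuotientOfFreeOfNeBot v.asIdeal v.ne_bot
  let _ := Fintype.ofFinite (𝓞 L ⧸ v.asIdeal)
  -- an integer close to `c`
  obtain ⟨y, hy⟩ := dense v c 1 one_pos
  have hy1 : v.valuation L y ≤ 1 := by
    rw [← valued_alg, ← norm_le_one_iff]
    have e : algebraMap L (v.adicCompletion L) y = c - (c - algebraMap L _ y) := by ring
    rw [e, sub_eq_add_neg]
    refine (IsUltrametricDist.norm_add_le_max _ _).trans (max_le hc ?_)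
    rw [norm_neg]
    exact hy.le
  obtain ⟨a, ha⟩ := exists_residue v hy1
  have hca : ‖c - algebraMap L (v.adicCompletion L) (algebraMap (𝓞 L) L a)‖ < 1 := by
    have e : c - algebraMap L (v.adicCompletion L) (algebraMap (𝓞 L) L a) =
        (c - algebraMap L _ y) + -(algebraMap L (v.adicCompletion L) (algebraMap (𝓞 L) L a - y)) := by
      rw [map_sub]; ring
    rw [e]
    refine lt_of_le_of_lt (IsUltrametricDist.norm_add_le_max _ _) (max_lt hy ?_)
    rw [norm_neg, norm_lt_one_iff, valued_alg]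
    exact ha
  set x : v.adicCompletion L := algebraMap L (v.adicCompletion L) (algebraMap (𝓞 L) L a) with hx
  have hx1 : ‖x‖ ≤ 1 := by
    rw [norm_le_one_iff, hx, valued_alg]
    exact v.valuation_le_one a
  have h1 : ‖c ^ Nat.card (𝓞 L ⧸ v.asIdeal) - x ^ Nat.card (𝓞 L ⧸ v.asIdeal)‖ < 1 :=
    Vale.Agent.P011.Even.LocDiv.pow_close hc hx1 hca _
  have h2 : ‖x ^ Nat.card (𝓞 L ⧸ v.asIdeal) - x‖ < 1 := by
    have h3 : a ^ Nat.card (𝓞 L ⧸ v.asIdeal) - a ∈ v.asIdeal := by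
      rw [← Ideal.Quotient.eq, map_pow, Nat.card_eq_fintype_card, FiniteField.pow_card]
    have h4 : x ^ Nat.card (𝓞 L ⧸ v.asIdeal) - x =
        algebraMap L (v.adicCompletion L) (algebraMap (𝓞 L) L
          (a ^ Nat.card (𝓞 L ⧸ v.asIdeal) - a)) := by
      rw [hx]
      simp only [map_sub, map_pow]
    rw [h4, norm_lt_one_iff, valued_alg]
    exact (v.valuation_lt_one_iff_mem _).mpr h3
  have e : c ^ Nat.card (𝓞 L ⧸ v.asIdeal) - c =
      (c ^ Nat.card (𝓞 L ⧸ v.asIdeal) - x ^ Nat.card (𝓞 L ⧸ v.asIdeal)) +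
        ((x ^ Nat.card (𝓞 L ⧸ v.asIdeal) - x) + -(c - x)) := by ring
  rw [e]
  refine lt_of_le_of_lt (IsUltrametricDist.norm_add_le_max _ _) (max_lt h1 ?_)
  refine lt_of_le_of_lt (IsUltrametricDist.norm_add_le_max _ _) (max_lt h2 ?_)
  rwa [norm_neg]

end roots

variable {K D : Type} [Field K] [NumberField K] [DivisionRing D] [Algebra K D]
    [FiniteDimensional K D] [Algebra.IsCentral K D] {n : ℕ}

/-- Splitting at a place with residue degree divisible by the degree. -/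
theorem spl_at (hD : finrank K D = n ^ 2) {L : Type} [Field L] [NumberField L] [Algebra K L]
    {v : HeightOneSpectrum (𝓞 K)} {w : HeightOneSpectrum (𝓞 L)}
    (hw : w.asIdeal.comap (algebraMap (𝓞 K) (𝓞 L)) = v.asIdeal) {f : ℕ} (hf : n ∣ f)
    (hc : Nat.card (𝓞 L ⧸ w.asIdeal) = Nat.card (𝓞 K ⧸ v.asIdeal) ^ f) :
    Spl D n (pl (F := K) L w) := by
  let _ := nnf v
  have hu := isUltra v
  obtain ⟨g, hg⟩ := completion_map hw
  obtain ⟨p, a, hp, ha, hcard, hmem⟩ := exists_card v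
  obtain ⟨r, m, Δ, _, _, _, _, hrm, hr, hΔ, hiff⟩ := exists_part hD (v.adicCompletion K)
  have hmf : m ∣ f := (Dvd.intro_left r hrm).trans hf
  obtain ⟨ξ, hξ⟩ := exists_root w
  have hp1 : ‖((p : ℕ) : v.adicCompletion K)‖ < 1 := by
    have h1 : ((p : ℕ) : v.adicCompletion K) =
        algebraMap K (v.adicCompletion K) (algebraMap (𝓞 K) K ((p : ℕ) : 𝓞 K)) := by
      rw [map_natCast, map_natCast]
    rw [h1, norm_lt_one_iff, valued_alg]
    exact (v.valuation_lt_one_iff_mem _).mpr hmem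
  have hdvd : (p ^ a) ^ m - 1 ∣ Nat.card (𝓞 L ⧸ w.asIdeal) - 1 := by
    obtain ⟨t, rfl⟩ := hmf
    rw [hc, hcard, pow_mul ((p ^ a)) m t]
    have h1 := Nat.sub_dvd_pow_sub_pow ((p ^ a) ^ m) 1 t
    rwa [one_pow] at h1
  have hpos : 0 < Nat.card (𝓞 L ⧸ w.asIdeal) - 1 := by
    obtain ⟨p', a', hp', ha', hcard', -⟩ := exists_card w
    rw [hcard']
    have : 1 < p' ^ a' := Nat.one_lt_pow ha'.ne' hp'.one_lt
    omega
  obtain ⟨b, hb⟩ := hdvd
  have h2 : Nat.card (𝓞 L ⧸ w.asIdeal) - 1 = b * ((p ^ a) ^ m - 1) := by rw [hb, mul_comm]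
  have hξ2 := hξ.pow hpos h2
  have h3 : Spl Δ m g := spl_local hΔ hp ha hp1 (fun c hc => by
    have := pow_card_close v c hc
    rwa [hcard] at this) g hξ2
  have h4 := (hiff _ g).mpr h3
  have h5 : g.comp (algebraMap K (v.adicCompletion K)) = pl (F := K) L w :=
    RingHom.ext fun x => hg x
  rwa [h5] at h4

/-- **A cyclic splitting field of odd degree.** -/
theorem exists_cyclic (hn : Odd n) (hD : finrank K D = n ^ 2) :
    ∃ (L : Type) (_ : Field L) (_ : NumberField L) (_ : Algebra K L) (_ : IsGalois K L)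
      (σ : L ≃ₐ[K] L), (∀ τ : L ≃ₐ[K] L, τ ∈ Subgroup.zpowers σ) ∧ Odd (finrank K L) ∧
      Nonempty (D →ₐ[K] Matrix (Fin n) (Fin n) L) := by
  obtain ⟨S, hS, hspl⟩ := spl_almost (F := K) (D := D) hn.pos hD
  obtain ⟨L, i1, i2, i3, i4, σ, hσ, hodd, hL⟩ := exists_field K hn S hS
  refine ⟨L, i1, i2, i3, i4, σ, hσ, hodd, spl_iff.mp ?_⟩
  refine Vale.Agent.P011.Tpl.H359.abhn_gen hD L (fun w => ?_) ?_
  · obtain ⟨v, hv⟩ := Vale.Agent.P011.Arith.exists_below (F := K) w
    by_cases hvS : v ∈ S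
    · obtain ⟨f, hf, hc⟩ := hL v hvS w hv
      exact spl_at hD hv hf hc
    · exact hspl v hvS L w hv
  · intro he
    exact absurd he (Nat.not_even_iff_odd.mpr hn)

/-- The same, in the form with a basis and exponents. -/
theorem exists_cyclic' (hn : Odd n) (hD : finrank K D = n ^ 2) :
    ∃ (L : Type) (_ : Field L) (_ : NumberField L) (_ : Algebra K L) (_ : FiniteDimensional K L)
      (_ : IsGalois K L) (m : ℕ) (_ : Basis (Fin m) K L) (σ : L ≃ₐ[K] L), Odd m ∧
      finrank K L = m ∧ (∀ τ : L ≃ₐ[K] L, ∃ i, i < m ∧ τ = σ ^ i) ∧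
      Nonempty (D →ₐ[K] Matrix (Fin n) (Fin n) L) := by
  classical
  obtain ⟨L, i1, i2, i3, i4, σ, hσ, hodd, hS⟩ := exists_cyclic (K := K) (D := D) hn hD
  have hfd : FiniteDimensional K L := Module.Finite.of_restrictScalars_finite ℚ K L
  refine ⟨L, i1, i2, i3, hfd, i4, finrank K L, finBasis K L, σ, hodd, rfl, fun τ => ?_, hS⟩
  have hcard : orderOf σ = finrank K L := by
    rw [orderOf_eq_card_of_forall_mem_zpowers hσ, IsGalois.card_aut_eq_finrank]
  have h1 : τ ∈ Submonoid.powers σ := by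
    rw [mem_powers_iff_mem_zpowers]
    exact hσ τ
  rw [mem_powers_iff_mem_range_orderOf, Finset.mem_image] at h1
  obtain ⟨i, hi, h2⟩ := h1
  exact ⟨i, hcard ▸ Finset.mem_range.mp hi, h2.symm⟩

end Vale.Agent.P011.H978.Cyc
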